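import Vale.Agent.P235.H105.W.Glue
import Vale.Agent.P235.H749.Cliq

/-!
# Theorem W, block (GLUE), without hypothesis (helper105)
-/

set_option autoImplicit false

namespace Vale.Agent.P235.H105.W

theorem glueStmt : Vale.Agent.P235.H786.GlueStmt := glue Vale.Agent.P235.H749.cliq

end Vale.Agent.P235.H105.W
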