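import Vale.Agent.P235.H786.TDefs

/-!
# Theorem W, block (GLUE) (helper105): the treewidth of a clique sum, from the torsos
-/

set_option autoImplicit false

namespace Vale.Agent.P235.H105.W

open SimpleGraph Vale.Agent.P235 Vale.Agent.P235.H134 Vale.Agent.P235.H750 Vale.Agent.P235.H786

section tree

variable {ι : Type} {κ : ι → Type} (T : SimpleGraph ι) (S : ∀ t, SimpleGraph (κ t))
  (p : ∀ t, ι → κ t)

/-- the trees `S t` joined along the edges of `T`, at the ports `p t s` -/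
def big : SimpleGraph (Σ t, κ t) where
  Adj x y := (∃ t i j, (S t).Adj i j ∧ x = ⟨t, i⟩ ∧ y = ⟨t, j⟩) ∨
    ∃ t s, T.Adj t s ∧ x = ⟨t, p t s⟩ ∧ y = ⟨s, p s t⟩
  symm := ⟨by
    rintro x y (⟨t, i, j, h, hx, hy⟩ | ⟨t, s, h, hx, hy⟩)
    · exact Or.inl ⟨t, j, i, h.symm, hy, hx⟩
    · exact Or.inr ⟨s, t, h.symm, hy, hx⟩⟩
  loopless := ⟨by
    rintro x (⟨t, i, j, h, hx, hy⟩ | ⟨t, s, h, hx, hy⟩)
    · rw [hx] at hy
      have : i = j := by simpa using hy
      exact h.ne this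
    · rw [hx] at hy
      have : t = s := congrArg Sigma.fst hy
      exact h.ne this⟩

variable {T S p}

theorem big_in {t : ι} {i j : κ t} (h : (S t).Adj i j) : (big T S p).Adj ⟨t, i⟩ ⟨t, j⟩ :=
  Or.inl ⟨t, i, j, h, rfl, rfl⟩

theorem big_out {t s : ι} (h : T.Adj t s) : (big T S p).Adj ⟨t, p t s⟩ ⟨s, p s t⟩ :=
  Or.inr ⟨t, s, h, rfl, rfl⟩

/-- connected subsets -/
theorem big_induce {P : ∀ t, Set (κ t)} (hP : ∀ t, ((S t).induce (P t)).Preconnected)
    (hT : (T.induce {t | (P t).Nonempty}).Preconnected)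
    (hp : ∀ t s, T.Adj t s → (P t).Nonempty → (P s).Nonempty → p t s ∈ P t) :
    ((big T S p).induce {x | x.2 ∈ P x.1}).Preconnected := by
  have h1 : ∀ (t : ι) (i j : κ t) (hi : i ∈ P t) (hj : j ∈ P t),
      ((big T S p).induce {x : Σ t, κ t | x.2 ∈ P x.1}).Reachable ⟨⟨t, i⟩, hi⟩ ⟨⟨t, j⟩, hj⟩ := by
    intro t i j hi hj
    let φ : (S t).induce (P t) →g (big T S p).induce {x : Σ t, κ t | x.2 ∈ P x.1} :=
      { toFun := fun x => ⟨⟨t, x.1⟩, x.2⟩
        map_rel' := fun {x y} hxy => by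
          show (big T S p).Adj ⟨t, x.1⟩ ⟨t, y.1⟩
          exact big_in hxy }
    exact (hP t ⟨i, hi⟩ ⟨j, hj⟩).map φ
  have h2 : ∀ (t s : {t : ι | (P t).Nonempty}), (T.induce {t | (P t).Nonempty}).Reachable t s →
      ∀ (i : κ t.1) (j : κ s.1) (hi : i ∈ P t.1) (hj : j ∈ P s.1),
      ((big T S p).induce {x : Σ t, κ t | x.2 ∈ P x.1}).Reachable ⟨⟨t.1, i⟩, hi⟩
        ⟨⟨s.1, j⟩, hj⟩ := by
    rintro t s ⟨w⟩
    induction w with
    | nil => exact fun i j hi hj => h1 _ i j hi hj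
    | @cons a b c hab w ih =>
      intro i j hi hj
      have hab' : T.Adj a.1 b.1 := hab
      have hpa := hp a.1 b.1 hab' a.2 b.2
      have hpb := hp b.1 a.1 hab'.symm b.2 a.2
      have e1 := h1 a.1 i (p a.1 b.1) hi hpa
      have e2 : ((big T S p).induce {x : Σ t, κ t | x.2 ∈ P x.1}).Adj
          ⟨⟨a.1, p a.1 b.1⟩, hpa⟩ ⟨⟨b.1, p b.1 a.1⟩, hpb⟩ := by
        show (big T S p).Adj ⟨a.1, p a.1 b.1⟩ ⟨b.1, p b.1 a.1⟩
        exact big_out hab'
      exact e1.trans (e2.reachable.trans (ih _ j hpb hj))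
  rintro ⟨⟨t, i⟩, hi⟩ ⟨⟨s, j⟩, hj⟩
  exact h2 ⟨t, ⟨i, hi⟩⟩ ⟨s, ⟨j, hj⟩⟩ (hT _ _) i j hi hj

theorem big_connected (hS : ∀ t, (S t).Connected) (hT : T.Connected) :
    (big T S p).Connected := by
  have hne : ∀ t, Nonempty (κ t) := fun t => (hS t).nonempty
  have h1 : ∀ (t : ι) (i j : κ t), (big T S p).Reachable ⟨t, i⟩ ⟨t, j⟩ := by
    intro t i j
    let φ : S t →g big T S p :=
      { toFun := fun x => ⟨t, x⟩
        map_rel' := fun {x y} hxy => big_in hxy }
    exact ((hS t).preconnected i j).map φ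
  have h2 : ∀ t s, T.Reachable t s → ∀ (i : κ t) (j : κ s),
      (big T S p).Reachable ⟨t, i⟩ ⟨s, j⟩ := by
    rintro t s ⟨w⟩
    induction w with
    | nil => exact fun i j => h1 _ i j
    | cons hab w ih => exact fun i j => (h1 _ i _).trans ((big_out hab).reachable.trans (ih _ j))
  obtain ⟨t0⟩ := hT.nonempty
  obtain ⟨i0⟩ := hne t0
  have : Nonempty (Σ t, κ t) := ⟨⟨t0, i0⟩⟩
  exact ⟨fun x y => h2 x.1 y.1 (hT.preconnected _ _) x.2 y.2⟩

/-- the darts of the big graph -/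
def dmap : (Σ t, (S t).Dart) ⊕ T.Dart → (big T S p).Dart
  | Sum.inl ⟨t, d⟩ => ⟨(⟨t, d.fst⟩, ⟨t, d.snd⟩), big_in d.adj⟩
  | Sum.inr d => ⟨(⟨d.fst, p d.fst d.snd⟩, ⟨d.snd, p d.snd d.fst⟩), big_out d.adj⟩

theorem dmap_bij : Function.Bijective (dmap (T := T) (S := S) (p := p)) := by
  constructor
  · rintro (⟨t, d⟩ | d) (⟨t', d'⟩ | d') h
    · have h1 := congrArg (fun e : (big T S p).Dart => e.toProd) h
      simp only [dmap] at h1
      have h2 := congrArg Prod.fst h1
      have h3 := congrArg Prod.snd h1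
      simp only at h2 h3
      obtain rfl : t = t' := congrArg Sigma.fst h2
      have h4 : d.fst = d'.fst := by simpa using h2
      have h5 : d.snd = d'.snd := by simpa using h3
      have : d = d' := by
        ext
        · exact h4
        · exact h5
      rw [this]
    · exfalso
      have h1 := congrArg (fun e : (big T S p).Dart => e.toProd) h
      simp only [dmap] at h1
      have h2 : t = d'.fst := congrArg (fun q : (Σ t, κ t) × Σ t, κ t => q.1.1) h1
      have h3 : t = d'.snd := congrArg (fun q : (Σ t, κ t) × Σ t, κ t => q.2.1) h1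
      exact d'.adj.ne (h2.symm.trans h3)
    · exfalso
      have h1 := congrArg (fun e : (big T S p).Dart => e.toProd) h
      simp only [dmap] at h1
      have h2 : d.fst = t' := congrArg (fun q : (Σ t, κ t) × Σ t, κ t => q.1.1) h1
      have h3 : d.snd = t' := congrArg (fun q : (Σ t, κ t) × Σ t, κ t => q.2.1) h1
      exact d.adj.ne (h2.trans h3.symm)
    · have h1 := congrArg (fun e : (big T S p).Dart => e.toProd) h
      simp only [dmap] at h1
      have h2 : d.fst = d'.fst := congrArg (fun q : (Σ t, κ t) × Σ t, κ t => q.1.1) h1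
      have h3 : d.snd = d'.snd := congrArg (fun q : (Σ t, κ t) × Σ t, κ t => q.2.1) h1
      have : d = d' := by
        ext
        · exact h2
        · exact h3
      rw [this]
  · rintro ⟨⟨x, y⟩, h⟩
    rcases h with ⟨t, i, j, h, hx, hy⟩ | ⟨t, s, h, hx, hy⟩
    · simp only at hx hy
      subst hx hy
      exact ⟨Sum.inl ⟨t, ⟨(i, j), h⟩⟩, rfl⟩
    · simp only at hx hy
      subst hx hy
      exact ⟨Sum.inr ⟨(t, s), h⟩, rfl⟩

theorem big_tree [Finite ι] [∀ t, Finite (κ t)] (hT : T.IsTree) (hS : ∀ t, (S t).IsTree) :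
    (big T S p).IsTree := by
  classical
  have := Fintype.ofFinite ι
  have := fun t => Fintype.ofFinite (κ t)
  have hT' := hT
  have hS' := hS
  rw [isTree_iff_connected_and_card] at hT' ⊢
  refine ⟨big_connected (fun t => (hS t).connected) hT.connected, ?_⟩
  have h1 : Fintype.card (big T S p).Dart =
      Fintype.card ((Σ t, (S t).Dart) ⊕ T.Dart) :=
    (Fintype.card_of_bijective dmap_bij).symm
  rw [Fintype.card_sum, Fintype.card_sigma, dart_card_eq_twice_card_edges,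
    dart_card_eq_twice_card_edges] at h1
  have h2 : ∀ t, Fintype.card (S t).Dart = 2 * (S t).edgeFinset.card := fun t =>
    dart_card_eq_twice_card_edges _
  have h3 : ∀ t, (S t).edgeFinset.card + 1 = Fintype.card (κ t) := by
    intro t
    have h := ((isTree_iff_connected_and_card).mp (hS t)).2
    rw [Nat.card_eq_fintype_card, Nat.card_eq_fintype_card] at h
    rw [← h, edgeFinset_card]
  have h4 : T.edgeFinset.card + 1 = Fintype.card ι := by
    have h := hT'.2
    rw [Nat.card_eq_fintype_card, Nat.card_eq_fintype_card] at h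
    rw [← h, edgeFinset_card]
  rw [Nat.card_eq_fintype_card, Nat.card_eq_fintype_card, ← edgeFinset_card, Fintype.card_sigma]
  have h5 : ∑ t, Fintype.card (κ t) = ∑ t, (S t).edgeFinset.card + Fintype.card ι := by
    simp_rw [← h3]
    rw [Finset.sum_add_distrib]
    simp
  have h6 : ∑ t, Fintype.card (S t).Dart = 2 * ∑ t, (S t).edgeFinset.card := by
    simp_rw [h2]
    rw [Finset.mul_sum]
  rw [h6] at h1
  omega

end tree

/-- (GLUE) -/
theorem glue (hC : CliqStmt) : GlueStmt := by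
  classical
  intro V ι _ _ G T B k hD hk
  choose κ hκ S C hS hCv hCe hCc hCk using hk
  have hne : ∀ t, Nonempty (κ t) := fun t => (hS t).connected.nonempty
  -- the ports
  have hport : ∀ t s, ∃ i : κ t, T.Adj t s → ∀ (x : V) (hx : x ∈ B t), x ∈ B s →
      (⟨x, hx⟩ : B t) ∈ C t i := by
    intro t s
    by_cases hts : T.Adj t s
    · have hdec : TDec ((tor G T B t).induce (B t)) (S t) (fun i => {x : B t | x ∈ C t i}) :=
        ⟨hS t, hCv t, hCe t, hCc t⟩
      obtain ⟨i, hi⟩ := hC (B t) (κ t) ((tor G T B t).induce (B t)) (S t)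
        (fun i => {x : B t | x ∈ C t i}) {x : B t | x.1 ∈ B s} hdec (by
          intro x hx y hy hxy
          show (tor G T B t).Adj x.1 y.1
          exact ⟨fun h => hxy (Subtype.ext h), x.2, y.2, Or.inr ⟨s, hts, hx, hy⟩⟩)
      exact ⟨i, fun _ x hx hxs => hi (show (⟨x, hx⟩ : B t) ∈ {x : B t | x.1 ∈ B s} from hxs)⟩
    · exact ⟨Classical.choice (hne t), fun h => absurd h hts⟩
  choose p hp using hport
  refine ⟨Σ t, κ t, inferInstance, big T S p, fun x => (C x.1 x.2).image Subtype.val,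
    big_tree hD.tree hS, ?_, ?_, ?_, ?_⟩
  · intro v
    obtain ⟨t, ht⟩ := hD.cover v
    obtain ⟨i, hi⟩ := hCv t ⟨v, ht⟩
    exact ⟨⟨t, i⟩, Finset.mem_image.2 ⟨_, hi, rfl⟩⟩
  · intro u v huv
    obtain ⟨t, hu, hv⟩ := hD.edge u v huv
    obtain ⟨i, hi, hj⟩ := hCe t ⟨u, hu⟩ ⟨v, hv⟩ (by
      show (tor G T B t).Adj u v
      exact ⟨huv.ne, hu, hv, Or.inl huv⟩)
    exact ⟨⟨t, i⟩, Finset.mem_image.2 ⟨_, hi, rfl⟩, Finset.mem_image.2 ⟨_, hj, rfl⟩⟩
  · intro v
    have hset : {x : Σ t, κ t | v ∈ (C x.1 x.2).image Subtype.val} =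
        {x : Σ t, κ t | x.2 ∈ (fun t => {i : κ t | ∃ h : v ∈ B t, (⟨v, h⟩ : B t) ∈ C t i}) x.1} := by
      ext ⟨t, i⟩
      simp only [Set.mem_ofPred_eq, Finset.mem_image]
      constructor
      · rintro ⟨⟨y, hy⟩, hyC, rfl⟩
        exact ⟨hy, hyC⟩
      · rintro ⟨h, hC⟩
        exact ⟨_, hC, rfl⟩
    have hnonempty : ∀ t, ({i : κ t | ∃ h : v ∈ B t, (⟨v, h⟩ : B t) ∈ C t i}).Nonempty ↔
        v ∈ B t := by
      intro t
      constructor
      · rintro ⟨i, h, -⟩
        exact h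
      · intro h
        obtain ⟨i, hi⟩ := hCv t ⟨v, h⟩
        exact ⟨i, h, hi⟩
    rw [hset]
    refine big_induce (P := fun t => {i : κ t | ∃ h : v ∈ B t, (⟨v, h⟩ : B t) ∈ C t i}) ?_ ?_ ?_
    · intro t
      by_cases h : v ∈ B t
      · have e : {i : κ t | ∃ h : v ∈ B t, (⟨v, h⟩ : B t) ∈ C t i} =
            {i : κ t | (⟨v, h⟩ : B t) ∈ C t i} := by
          ext i
          exact ⟨fun ⟨_, hi⟩ => hi, fun hi => ⟨h, hi⟩⟩
        rw [e]
        exact hCc t ⟨v, h⟩
      · rintro ⟨i, h', -⟩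
        exact absurd h' h
    · have e : {t : ι | ({i : κ t | ∃ h : v ∈ B t, (⟨v, h⟩ : B t) ∈ C t i}).Nonempty} =
          {t | v ∈ B t} := by
        ext t
        exact hnonempty t
      rw [e]
      exact hD.conn v
    · intro t s hts h1 h2
      have h1' := (hnonempty t).mp h1
      have h2' := (hnonempty s).mp h2
      exact ⟨h1', hp t s hts v h1' h2'⟩
  · intro x
    exact Finset.card_image_le.trans (hCk x.1 x.2)

end Vale.Agent.P235.H105.W
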